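import Vale.Agent.Lib.P060.AlphaTwo

namespace Vale.Agent.Results.P060.AlphaTwoSmallClique

open Vale.Agent.Lib.P060

/-- Hadwiger's conjecture for graphs with independence number at most two and small clique
number: if `G` has `n` vertices, no three pairwise non-adjacent vertices, and clique number `ω`
with `144 * ω ^ 3 ≤ n ^ 2`, then for some `t` with `n ≤ 2 * t` the graph `G` is `t`-colourable
and has a complete minor on `t` vertices. In particular the chromatic number of `G` is at most
its Hadwiger number. -/
theorem result {V : Type*} [Fintype V] (G : SimpleGraph V) (hα : G.indepNum ≤ 2)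
    (hn : 144 * G.cliqueNum ^ 3 ≤ Fintype.card V ^ 2) :
    ∃ t : ℕ, Fintype.card V ≤ 2 * t ∧ G.Colorable t ∧ HasCompleteMinor G t := by
  classical
  exact hadwiger_of_small_clique G hα hn

end Vale.Agent.Results.P060.AlphaTwoSmallClique
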