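import Vale.Agent.Lib.P060.AlphaTwo

namespace Vale.Agent.Results.P060.DenseSmallClique

open Vale.Agent.Lib.P060

/-- Hadwiger's conjecture for dense graphs with clique number below half the order: if every
vertex of the `n`-vertex graph `G` has at most `d` non-neighbours, the clique number `ω` of `G`
satisfies `2 * ω < n`, and `144 * d ^ 3 ≤ (n - 2 * ω) ^ 2`, then for some `t` with `n ≤ 2 * t`
the graph `G` is `t`-colourable and has a complete minor on `t` vertices. In particular the
chromatic number of `G` is at most its Hadwiger number. There is no assumption on the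
independence number. -/
theorem result {V : Type*} [Fintype V] [DecidableEq V] (G : SimpleGraph V) [DecidableRel G.Adj]
    (d : ℕ) (hdeg : ∀ v, Gᶜ.degree v ≤ d) (hω : 2 * G.cliqueNum < Fintype.card V)
    (hn : 144 * d ^ 3 ≤ (Fintype.card V - 2 * G.cliqueNum) ^ 2) :
    ∃ t : ℕ, Fintype.card V ≤ 2 * t ∧ G.Colorable t ∧ HasCompleteMinor G t :=
  hadwiger_of_dense G d hdeg hω hn

end Vale.Agent.Results.P060.DenseSmallClique
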