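import Vale.Agent.Lib.P060.Half

namespace Vale.Agent.Results.P060.HighMinDegree

open Vale.Agent.Lib.P060

/-- Hadwiger's conjecture for graphs of very high minimum degree whose complement has a
matching covering all but at most one vertex: if every vertex of the `n`-vertex graph `G` has at
most `d` non-neighbours, `144 * d ^ 3 ≤ n ^ 2`, and the complement of `G` has a matching
covering at least `n - 1` vertices, then `G` is `⌈n / 2⌉`-colourable and has a complete minor
on `⌈n / 2⌉` vertices. -/
theorem result {V : Type*} [Fintype V] [DecidableEq V] (G : SimpleGraph V) [DecidableRel G.Adj]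
    (d : ℕ) (hdeg : ∀ v, Gᶜ.degree v ≤ d) (hn : 144 * d ^ 3 ≤ Fintype.card V ^ 2)
    (M : Gᶜ.Subgraph) (hM : M.IsMatching) (hcov : Fintype.card V ≤ M.verts.ncard + 1) :
    G.Colorable ((Fintype.card V + 1) / 2) ∧ HasCompleteMinor G ((Fintype.card V + 1) / 2) :=
  ⟨colorable_half_of_matching G M hM hcov, half_minor_of_dense G d hdeg hn⟩

end Vale.Agent.Results.P060.HighMinDegree
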